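import Vale.Agent.P057.R8Main

namespace Vale.Agent.Results.P057.R8

open Vale.Agent.P057R8

theorem result : (4 * Real.log 2 * Real.log 3) ^ (1 / 3 : ℝ) < 2 * (Real.log 2) ^ (2 / 3 : ℝ) ∧
    ∀ ε : ℝ, 0 < ε → ∃ N₀ : ℕ, ∀ N ≥ N₀,
      (N : ℝ) * Real.exp (-(3 * (4 * Real.log 2 * Real.log 3) ^ (1 / 3 : ℝ) + ε)
        * (Real.log N) ^ (1 / 3 : ℝ)) ≤ r 8 N := by
  refine ⟨?_, main⟩
  have l2 : 0 < Real.log 2 := Real.log_pos (by norm_num)
  have l3 : 0 < Real.log 3 := Real.log_pos (by norm_num)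
  have l4 : Real.log 3 < 2 * Real.log 2 := by
    have : Real.log 4 = 2 * Real.log 2 := by
      rw [show (4 : ℝ) = 2 ^ 2 by norm_num, Real.log_pow]; norm_num
    rw [← this]; exact Real.log_lt_log (by norm_num) (by norm_num)
  have e : 2 * (Real.log 2) ^ (2 / 3 : ℝ) = (8 * Real.log 2 ^ 2) ^ (1 / 3 : ℝ) := by
    rw [Real.mul_rpow (by norm_num) (by positivity), ← Real.rpow_natCast (Real.log 2) 2,
      ← Real.rpow_mul l2.le, show (8 : ℝ) = 2 ^ (3 : ℝ) by norm_num,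
      ← Real.rpow_mul (by norm_num)]
    norm_num
  rw [e]
  apply Real.rpow_lt_rpow (by positivity) _ (by norm_num)
  nlinarith

end Vale.Agent.Results.P057.R8
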