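import Vale.Agent.P057.Main3

namespace Vale.Agent.Results.P057.ThreeAP

open Vale.Agent.P057 Real

theorem result : ∃ c : ℝ, 0 < c ∧ ∀ N : ℕ, 2 ≤ N → ∃ A : Finset ℕ, A ⊆ Finset.Icc 1 N ∧
    (∀ a d : ℕ, 0 < d → ¬ (a ∈ A ∧ a + d ∈ A ∧ a + 2 * d ∈ A)) ∧
    c * (N : ℝ) * Real.exp (-(2 * Real.sqrt (Real.log (64 / 19)) * Real.sqrt (Real.log N))) /
      Real.sqrt (Real.log N) ^ 3 ≤ (A.card : ℝ) := by
  obtain ⟨c, hc⟩ : ∃ c, c = Real.log (64 / 19) := ⟨_, rfl⟩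
  have c0 : 0 < c := by rw [hc]; exact log_pos (by norm_num)
  obtain ⟨s, hs⟩ : ∃ s, s = √c := ⟨_, rfl⟩
  have s0 : 0 < s := by rw [hs]; positivity
  have s2 : s ^ 2 = c := by rw [hs]; exact sq_sqrt (by positivity)
  obtain ⟨m, hm⟩ : ∃ m, m = √(Real.log 2) := ⟨_, rfl⟩
  have m0 : 0 < m := by rw [hm]; exact sqrt_pos.2 (log_pos (by norm_num))
  rw [← hc, ← hs]
  refine ⟨19 / 64 / (1360000 * (1 / s + 1 / m) ^ 3), by positivity, fun N hN => ?_⟩
  have N2 : (2 : ℝ) ≤ N := by exact_mod_cast hN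
  obtain ⟨x, hx⟩ : ∃ x, x = √(Real.log N) := ⟨_, rfl⟩
  have mx : m ≤ x := by rw [hm, hx]; exact sqrt_le_sqrt (log_le_log (by norm_num) N2)
  have x0 : 0 < x := m0.trans_le mx
  have x2 : x ^ 2 = Real.log N := by rw [hx]; exact sq_sqrt (log_nonneg (by linarith))
  rw [← hx]
  obtain ⟨d, hd⟩ : ∃ d : ℕ, d = ⌈x / s⌉₊ := ⟨_, rfl⟩
  have d1 : x / s ≤ d := by rw [hd]; exact Nat.le_ceil _
  have d2 : (d : ℝ) ≤ x / s + 1 := by rw [hd]; exact (Nat.ceil_lt_add_one (by positivity)).le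
  have d0 : (0 : ℝ) < d := lt_of_lt_of_le (by positivity) d1
  have d3 : 1 ≤ d := by exact_mod_cast (show (0 : ℕ) < d by exact_mod_cast d0)
  obtain ⟨y, hy⟩ : ∃ y, y = exp (x ^ 2 / (2 * d)) := ⟨_, rfl⟩
  have y1 : 1 < y := by rw [hy]; exact one_lt_exp_iff.2 (by positivity)
  obtain ⟨L, hL⟩ : ∃ L : ℕ, L = ⌈y⌉₊ := ⟨_, rfl⟩
  have L1 : y ≤ L := by rw [hL]; exact Nat.le_ceil _
  have L2 : (L : ℝ) ≤ 2 * y := by
    have := Nat.ceil_lt_add_one (show 0 ≤ y by linarith)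
    rw [← hL] at this
    linarith
  have L3 : 1 ≤ L := by exact_mod_cast (y1.trans_le L1).le
  have L4 : N ≤ L ^ (2 * d) := by
    have e : y ^ (2 * d) = N := by
      rw [hy, ← exp_nat_mul]
      push_cast
      rw [mul_div_cancel₀ _ (by positivity), x2, exp_log (by linarith)]
    have : (N : ℝ) ≤ L ^ (2 * d) := e ▸ pow_le_pow_left₀ (by linarith) L1 (2 * d)
    exact_mod_cast this
  obtain ⟨A, a1, a2, a3⟩ := core6 d L N d3 L3 L4
  refine ⟨A, a1, a2, ?_⟩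
  have e1 : 19 / 64 * exp (-(s * x)) ≤ (19 / 64 : ℝ) ^ d := by
    have t : (19 / 64 : ℝ) = exp (-c) := by
      rw [hc, exp_neg, exp_log (by norm_num)]
      norm_num
    rw [t, ← exp_nat_mul, ← exp_add, exp_le_exp]
    have u : c * (x / s) = s * x := by
      field_simp
      nlinarith
    nlinarith
  have e2 : y ^ 2 ≤ exp (s * x) := by
    rw [hy, ← exp_nat_mul, exp_le_exp]
    rw [div_le_iff₀ s0] at d1
    push_cast
    rw [← mul_div_assoc, div_le_iff₀ (by positivity)]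
    nlinarith
  have e3 : (d : ℝ) ≤ (1 / s + 1 / m) * x := by
    have : 1 ≤ 1 / m * x := by
      rw [one_div, inv_mul_eq_div, le_div_iff₀ m0]
      linarith
    have u : x / s = 1 / s * x := by ring
    nlinarith
  have e4 : (L : ℝ) ^ 2 ≤ 4 * exp (s * x) := by
    have : (L : ℝ) ^ 2 ≤ (2 * y) ^ 2 := pow_le_pow_left₀ (Nat.cast_nonneg _) L2 2
    nlinarith
  have e5 : (N : ℝ) * (19 / 64 * exp (-(s * x))) ≤
      340000 * ((1 / s + 1 / m) * x) ^ 3 * (4 * exp (s * x)) * A.card :=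
    (mul_le_mul_of_nonneg_left e1 (by positivity)).trans (a3.trans (by gcongr))
  have e6 : exp (-(2 * s * x)) = exp (-(s * x)) / exp (s * x) := by
    rw [← exp_sub]
    congr 1
    ring
  have K0 : 0 < 1 / s + 1 / m := by positivity
  generalize 1 / s + 1 / m = K at e5 K0 ⊢
  have E0 := exp_pos (s * x)
  rw [e6, div_le_iff₀ (by positivity)]
  generalize exp (s * x) = E at e5 E0 ⊢
  generalize exp (-(s * x)) = F at e5 ⊢
  have : 19 / 64 / (1360000 * K ^ 3) * N * (F / E) =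
      N * (19 / 64 * F) / (1360000 * K ^ 3 * E) := by field_simp
  rw [this, div_le_iff₀ (by positivity)]
  linarith

end Vale.Agent.Results.P057.ThreeAP
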